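import Vale.Agent.P282.Bd3.B11

open scoped NNReal ENNReal
open IsLocalRing Vale.Agent.P282.Gap

namespace Vale.Agent.Results.P282.Conjecture

/-- The ordinary double point volume gap: the normalized volume of a singular klt germ of dimension
`n ≥ 2` is at most `2 (n - 1) ^ n`, with equality if and only if the germ is an ordinary double
point. -/
theorem result (n r : ℕ) (hn : 2 ≤ n) (R : Type) [CommRing R] [IsDomain R] [IsLocalRing R]
    [Algebra ℂ R] (ω : (Fin n → Derivation ℂ (FractionRing R) (FractionRing R)) → FractionRing R)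
    (h : IsKltGerm R n r ω) (hsing : ¬ IsRegularLocalRing R) :
    normalizedVolume R n r ω ≤ 2 * ((n : ℝ≥0∞) - 1) ^ n ∧
      (normalizedVolume R n r ω = 2 * ((n : ℝ≥0∞) - 1) ^ n ↔ IsODP R n) :=
  ⟨normalizedVolume_le hn h hsing, isODP hn h hsing, normalizedVolume_odp hn h hsing⟩

end Vale.Agent.Results.P282.Conjecture
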