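import Vale.Agent.P282.Bd3.B11

open scoped NNReal ENNReal
open IsLocalRing Vale.Agent.P282.Full

namespace Vale.Agent.Results.P282.Inequality

/-- The normalized volume of a singular klt germ of dimension `n ≥ 2` is at most
`2 (n - 1) ^ n`. -/
theorem result (n r : ℕ) (hn : 2 ≤ n) (R : Type) [CommRing R] [IsDomain R] [IsLocalRing R]
    [Algebra ℂ R] (ω : (Fin n → Derivation ℂ (FractionRing R) (FractionRing R)) → FractionRing R)
    (h : IsKltGerm R n r ω) (hreg : ¬ IsRegularLocalRing R) :
    normalizedVolume R n r ω ≤ 2 * ((n : ℝ≥0∞) - 1) ^ n :=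
  normalizedVolume_le hn h hreg

end Vale.Agent.Results.P282.Inequality
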